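import Vale.Agent.H22.OT.Defs

/-!
The Laguerre map of a semi-discrete optimal transport problem: a measurable selection of the
site attaining the Laguerre potential, and its push-forward (row M of the P074 plan).
-/

namespace Vale.Agent.H34

open MeasureTheory Set Vale.Agent.H22.OT

theorem convexOn_lagPot {d : ℕ} {ι : Type*} [Fintype ι] [Nonempty ι]
    (y : ι → EuclideanSpace ℝ (Fin d)) (c : ι → ℝ) : ConvexOn ℝ Set.univ (lagPot y c) := by
  refine ⟨convex_univ, ?_⟩
  intro x _ z _ a b ha hb hab
  obtain ⟨i, hi⟩ := exists_eq_lagPot y c (a • x + b • z)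
  have h1 := mul_le_mul_of_nonneg_left (le_lagPot y c x i) ha
  have h2 := mul_le_mul_of_nonneg_left (le_lagPot y c z i) hb
  rw [hi]
  simp only [inner_add_left, inner_smul_left, RCLike.conj_to_real, smul_eq_mul]
  have hc : c i = a * c i + b * c i := by rw [← add_mul, hab, one_mul]
  linarith

section Sel

variable {E : Type*} [NormedAddCommGroup E] [InnerProductSpace ℝ E] {ι : Type*} [Fintype ι]
  [Nonempty ι]

theorem exists_first_site (y : ι → E) (c : ι → ℝ) (x : E) :
    ∃ i, lagPot y c x = inner ℝ x (y i) - c i ∧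
      ∀ k, lagPot y c x = inner ℝ x (y k) - c k → Fintype.equivFin ι i ≤ Fintype.equivFin ι k := by
  classical
  obtain ⟨i0, hi0⟩ := exists_eq_lagPot y c x
  have hne : (Finset.univ.filter
      (fun k => lagPot y c x = inner ℝ x (y k) - c k)).Nonempty :=
    ⟨i0, by simp [hi0]⟩
  obtain ⟨i, hi, hmin⟩ := Finset.exists_min_image _ (fun k => Fintype.equivFin ι k) hne
  refine ⟨i, (Finset.mem_filter.1 hi).2, fun k hk => hmin k ?_⟩
  simp [hk]

/-- The first site (in a fixed enumeration) attaining the Laguerre potential at `x`. -/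
noncomputable def lagIdx (y : ι → E) (c : ι → ℝ) (x : E) : ι :=
  Classical.choose (exists_first_site y c x)

theorem lagIdx_spec (y : ι → E) (c : ι → ℝ) (x : E) :
    lagPot y c x = inner ℝ x (y (lagIdx y c x)) - c (lagIdx y c x) :=
  (Classical.choose_spec (exists_first_site y c x)).1

theorem lagIdx_min (y : ι → E) (c : ι → ℝ) (x : E) (k : ι)
    (hk : lagPot y c x = inner ℝ x (y k) - c k) :
    Fintype.equivFin ι (lagIdx y c x) ≤ Fintype.equivFin ι k :=
  (Classical.choose_spec (exists_first_site y c x)).2 k hk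

theorem lagIdx_preimage (y : ι → E) (c : ι → ℝ) (i : ι) :
    lagIdx y c ⁻¹' {i} = lagCell univ y c i ∩
      ⋂ k, {x | x ∈ lagCell univ y c k → Fintype.equivFin ι i ≤ Fintype.equivFin ι k} := by
  ext x
  simp only [mem_preimage, mem_singleton_iff, mem_inter_iff, mem_iInter, mem_ofPred_eq,
    mem_lagCell_iff, mem_univ, true_and]
  constructor
  · intro h
    subst h
    exact ⟨lagIdx_spec y c x, fun k hk => lagIdx_min y c x k hk⟩
  · rintro ⟨h1, h2⟩
    have h3 := lagIdx_min y c x i h1
    have h4 := h2 (lagIdx y c x) (lagIdx_spec y c x)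
    exact (Fintype.equivFin ι).injective (le_antisymm h3 h4)

theorem measurableSet_lagIdx_preimage [MeasurableSpace E] [BorelSpace E]
    (y : ι → E) (c : ι → ℝ) (i : ι) : MeasurableSet (lagIdx y c ⁻¹' {i}) := by
  rw [lagIdx_preimage]
  refine (measurableSet_lagCell MeasurableSet.univ y c i).inter
    (MeasurableSet.iInter fun k => ?_)
  by_cases h : Fintype.equivFin ι i ≤ Fintype.equivFin ι k
  · simp [h]
  · have : {x : E | x ∈ lagCell univ y c k → Fintype.equivFin ι i ≤ Fintype.equivFin ι k}
        = (lagCell univ y c k)ᶜ := by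
      ext x
      simp [h]
    rw [this]
    exact (measurableSet_lagCell MeasurableSet.univ y c k).compl

theorem measurable_lagMap [MeasurableSpace E] [BorelSpace E] (y : ι → E) (c : ι → ℝ) :
    Measurable (fun x => y (lagIdx y c x)) := by
  let _ : MeasurableSpace ι := ⊤
  have h1 : Measurable (lagIdx y c) :=
    measurable_to_countable' (fun i => measurableSet_lagIdx_preimage y c i)
  have h2 : Measurable y := measurable_from_top
  exact h2.comp h1

end Sel

theorem exists_lagMap {d : ℕ} {ι : Type*} [Fintype ι] [Nonempty ι]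
    {K : Set (EuclideanSpace ℝ (Fin d))} (hKc : IsCompact K) (hKint : (interior K).Nonempty)
    (y : ι → EuclideanSpace ℝ (Fin d)) (hy : Function.Injective y)
    (m : ι → ℝ) (hm : ∀ j, 0 < m j) (c : ι → ℝ) (hc : IsOptPrice K 0 y m c) :
    ∃ T : EuclideanSpace ℝ (Fin d) → EuclideanSpace ℝ (Fin d), Measurable T ∧
      (∀ x, ∃ i, T x = y i ∧ lagPot y c x = inner ℝ x (y i) - c i) ∧
      (ProbabilityTheory.cond volume K).map T =
        ∑ i, ENNReal.ofReal (m i / volume.real K) • Measure.dirac (y i) := by
  classical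
  have hKm : MeasurableSet K := hKc.measurableSet
  have hKfin : volume K ≠ ⊤ := hKc.measure_lt_top.ne
  have hKpos : 0 < volume K := Measure.measure_pos_of_nonempty_interior volume hKint
  have hKreal : 0 < volume.real K := ENNReal.toReal_pos hKpos.ne' hKfin
  have hT : Measurable (fun x => y (lagIdx y c x)) := measurable_lagMap y c
  refine ⟨fun x => y (lagIdx y c x), hT, fun x => ⟨lagIdx y c x, rfl, lagIdx_spec y c x⟩, ?_⟩
  -- the mass of each fibre
  have hcell : ∀ i, volume (lagCell K y c i) = ENNReal.ofReal (m i) := by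
    intro i
    have h1 := hc i
    have h2 : (∫ x in lagCell K y c i, (1 + (0 : EuclideanSpace ℝ (Fin d) → ℝ) x))
        = volume.real (lagCell K y c i) := by
      simp
    rw [h2] at h1
    have hfin : volume (lagCell K y c i) ≠ ⊤ :=
      ((measure_mono (lagCell_subset K y c i)).trans_lt hKc.measure_lt_top).ne
    rw [← h1, ofReal_measureReal hfin]
  have hfib : ∀ i, volume (K ∩ lagIdx y c ⁻¹' {i}) = ENNReal.ofReal (m i) := by
    intro i
    rw [← hcell i]
    apply measure_eq_measure_of_null_sdiff
    · rintro x ⟨hxK, hx⟩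
      rw [mem_preimage, mem_singleton_iff] at hx
      exact mem_lagCell_iff.2 ⟨hxK, hx ▸ lagIdx_spec y c x⟩
    · have hsub : lagCell K y c i \ (K ∩ lagIdx y c ⁻¹' {i})
          ⊆ ⋃ k ∈ {k : ι | k ≠ i}, lagCell K y c i ∩ lagCell K y c k := by
        rintro x ⟨hx1, hx2⟩
        have hne : lagIdx y c x ≠ i := fun h => hx2 ⟨hx1.1, h⟩
        refine mem_biUnion hne ⟨hx1, ?_⟩
        exact mem_lagCell_iff.2 ⟨hx1.1, lagIdx_spec y c x⟩
      refine measure_mono_null hsub ?_
      rw [measure_biUnion_null_iff (Set.to_countable _)]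
      intro k hk
      exact lagCell_inter_null volume K c (fun h => hk (hy h).symm)
  have hval : ∀ i, ProbabilityTheory.cond volume K (lagIdx y c ⁻¹' {i})
      = ENNReal.ofReal (m i / volume.real K) := by
    intro i
    rw [ProbabilityTheory.cond_apply hKm, hfib i, ENNReal.ofReal_div_of_pos hKreal,
      ofReal_measureReal hKfin, ENNReal.div_eq_inv_mul]
  refine Measure.ext (fun B hB => ?_)
  rw [Measure.map_apply hT hB]
  have hdecomp : (fun x => y (lagIdx y c x)) ⁻¹' B
      = ⋃ i ∈ Finset.univ.filter (fun i => y i ∈ B), lagIdx y c ⁻¹' {i} := by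
    ext x
    simp
  rw [hdecomp, measure_biUnion_finset]
  · simp only [Measure.coe_finsetSum, Finset.sum_apply, Measure.smul_apply, smul_eq_mul,
      Measure.dirac_apply' _ hB]
    rw [Finset.sum_filter]
    refine Finset.sum_congr rfl (fun i _ => ?_)
    by_cases h : y i ∈ B
    · simp [h, hval i]
    · simp [h]
  · intro i _ j _ hij
    refine Set.disjoint_left.2 (fun x hx hx' => hij ?_)
    rw [mem_preimage, mem_singleton_iff] at hx hx'
    rw [← hx, ← hx']
  · intro i _
    exact measurableSet_lagIdx_preimage y c i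

end Vale.Agent.H34
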